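import Vale.Agent.P080.Bdl.B1
import Vale.Agent.P080.Bdl.B2

/-!
Consequences of the interior `C^{1,α}` estimate for infinity-harmonic functions:
stability of the gradient in the supremum norm and the Liouville theorem for growth
`o(R^{1+α})`.
-/

namespace Vale.Agent.P080.H990

open Vale.Agent.P080 Metric Set

variable {E : Type*} [NormedAddCommGroup E] [InnerProductSpace ℝ E] [CompleteSpace E]

theorem norm_gradient_sub (u v : E → ℝ) (x y : E) :
    ‖gradient u x - gradient v y‖ = ‖fderiv ℝ u x - fderiv ℝ v y‖ := by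
  unfold gradient
  rw [← map_sub, LinearIsometryEquiv.norm_map]

theorem norm_gradient_eq (u : E → ℝ) (x : E) :
    ‖gradient u x‖ = ‖fderiv ℝ u x‖ := by
  unfold gradient
  rw [LinearIsometryEquiv.norm_map]

/-- comparison of two derivatives from sup-closeness. -/
theorem fderiv_close {u v : E → ℝ} {x : E} {ρ r L δ : ℝ} (hr : 0 < r) (hrρ : r < ρ)
    (hu : ∀ y ∈ ball x ρ, DifferentiableAt ℝ u y)
    (hv : ∀ y ∈ ball x ρ, DifferentiableAt ℝ v y)
    (hLu : ∀ y ∈ closedBall x r, ‖fderiv ℝ u y - fderiv ℝ u x‖ ≤ L)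
    (hLv : ∀ y ∈ closedBall x r, ‖fderiv ℝ v y - fderiv ℝ v x‖ ≤ L)
    (hL0 : 0 ≤ L)
    (hδ : ∀ y ∈ ball x ρ, |u y - v y| ≤ δ) :
    ‖fderiv ℝ u x - fderiv ℝ v x‖ ≤ 2 * δ / r + 2 * L := by
  have hx : x ∈ closedBall x r := mem_closedBall_self hr.le
  have hsub : closedBall x r ⊆ ball x ρ := closedBall_subset_ball hrρ
  have hδ0 : 0 ≤ δ := (abs_nonneg _).trans (hδ x (hsub hx))
  have hexp : ∀ (w : E → ℝ), (∀ y ∈ ball x ρ, DifferentiableAt ℝ w y) →
      (∀ y ∈ closedBall x r, ‖fderiv ℝ w y - fderiv ℝ w x‖ ≤ L) →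
      ∀ y ∈ closedBall x r, |w y - w x - fderiv ℝ w x (y - x)| ≤ L * ‖y - x‖ := by
    intro w hw hLw y hy
    have := Convex.norm_image_sub_le_of_norm_fderiv_le' (𝕜 := ℝ) (f := w) (φ := fderiv ℝ w x)
      (fun z hz => hw z (hsub hz)) hLw (convex_closedBall x r) hx hy
    simpa [Real.norm_eq_abs] using this
  refine ContinuousLinearMap.opNorm_le_bound _ (by positivity) fun e => ?_
  rcases eq_or_ne e 0 with rfl | he
  · simp
  have hen : 0 < ‖e‖ := norm_pos_iff.mpr he
  set c : ℝ := r / ‖e‖ with hc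
  have hcpos : 0 < c := div_pos hr hen
  have hce : ‖c • e‖ = r := by
    rw [norm_smul, Real.norm_eq_abs, abs_of_pos hcpos, hc, div_mul_cancel₀ _ hen.ne']
  have hy : x + c • e ∈ closedBall x r := by
    rw [mem_closedBall, dist_eq_norm, add_sub_cancel_left, hce]
  have h1 := hexp u hu hLu _ hy
  have h2 := hexp v hv hLv _ hy
  rw [add_sub_cancel_left, hce] at h1 h2
  have h3 := hδ _ (hsub hy)
  have h4 := hδ _ (hsub hx)
  rw [abs_le] at h1 h2 h3 h4
  have hmap : (fderiv ℝ u x - fderiv ℝ v x) (c • e)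
      = fderiv ℝ u x (c • e) - fderiv ℝ v x (c • e) := by
    rw [ContinuousLinearMap.sub_apply]
  have hkey : |(fderiv ℝ u x - fderiv ℝ v x) (c • e)| ≤ 2 * δ + 2 * (L * r) := by
    rw [hmap, abs_le]
    constructor <;> linarith [h1.1, h1.2, h2.1, h2.2, h3.1, h3.2, h4.1, h4.2]
  have hlin : (fderiv ℝ u x - fderiv ℝ v x) (c • e) = c * (fderiv ℝ u x - fderiv ℝ v x) e := by
    rw [map_smul, smul_eq_mul]
  rw [hlin, abs_mul, abs_of_pos hcpos] at hkey
  rw [Real.norm_eq_abs]
  have h5 : |(fderiv ℝ u x - fderiv ℝ v x) e| ≤ (2 * δ + 2 * (L * r)) / c := by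
    rw [le_div_iff₀ hcpos]; linarith
  refine h5.trans (le_of_eq ?_)
  rw [hc]
  field_simp

/-- stability of the gradient. -/
theorem stability {α C : ℝ} (hα : 0 < α) (hC : 0 < C) (hF : Zy.FullEstimate E α C) :
    ∀ (u v : E → ℝ) (x₀ : E) (R M δ : ℝ), 0 < R → 0 < M → 0 < δ →
      IsInfHarmonicOn u (ball x₀ R) → IsInfHarmonicOn v (ball x₀ R) →
      (∀ x ∈ ball x₀ R, ∀ y ∈ ball x₀ R, u x - u y ≤ M) →
      (∀ x ∈ ball x₀ R, ∀ y ∈ ball x₀ R, v x - v y ≤ M) →
      (∀ x ∈ ball x₀ R, |u x - v x| ≤ δ) →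
      ∀ x ∈ ball x₀ (R / 2), ‖gradient u x - gradient v x‖ ≤
        (16 + 8 * C) * ((M / R) ^ (1 / (1 + α)) * (δ / R) ^ (α / (1 + α))) := by
  intro u v x₀ R M δ hR hM hδ hu hv hoscu hoscv hclose x hx
  have hsub : ball x (R / 2) ⊆ ball x₀ R := by
    intro y hy
    rw [mem_ball] at hy hx ⊢
    linarith [dist_triangle y x x₀]
  have h1α : 0 < 1 + α := by linarith
  have hmono : ∀ {w : E → ℝ}, IsInfHarmonicOn w (ball x₀ R) → IsInfHarmonicOn w (ball x (R / 2)) :=
    fun hw => ⟨hw.continuousOn.mono hsub, fun z hz => hw.sub z (hsub hz),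
      fun z hz => hw.super z (hsub hz)⟩
  obtain ⟨hu1, hu2, hu3⟩ := hF u x (R / 2) M (by linarith) (hmono hu)
    (fun a ha b hb => hoscu a (hsub ha) b (hsub hb))
  obtain ⟨hv1, hv2, hv3⟩ := hF v x (R / 2) M (by linarith) (hmono hv)
    (fun a ha b hb => hoscv a (hsub ha) b (hsub hb))
  have hR4 : R / 2 / 2 = R / 4 := by ring
  rw [hR4] at hu1 hu2 hu3 hv1 hv2 hv3
  have hxx : x ∈ ball x (R / 4) := mem_ball_self (by linarith)
  have hMR : 0 < M / R := div_pos hM hR
  have hδR : 0 < δ / R := div_pos hδ hR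
  set A : ℝ := (M / R) ^ (1 / (1 + α)) with hA
  set B : ℝ := (δ / R) ^ (α / (1 + α)) with hB
  have hA0 : 0 < A := Real.rpow_pos_of_pos hMR _
  have hB0 : 0 < B := Real.rpow_pos_of_pos hδR _
  have hsum : 1 / (1 + α) + α / (1 + α) = 1 := by
    field_simp
  rcases le_or_gt δ M with hle | hgt
  · -- main case
    set q : ℝ := (δ / M) ^ (1 / (1 + α)) with hq
    have hδM : 0 < δ / M := div_pos hδ hM
    have hδM1 : δ / M ≤ 1 := (div_le_one hM).mpr hle
    have hq0 : 0 < q := Real.rpow_pos_of_pos hδM _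
    have hq1 : q ≤ 1 := Real.rpow_le_one hδM.le hδM1 (by positivity)
    set r : ℝ := R / 8 * q with hr
    have hr0 : 0 < r := by positivity
    have hr1 : r < R / 4 := by
      have : R / 8 * q ≤ R / 8 * 1 := by gcongr
      linarith
    have hdu : ∀ y ∈ ball x (R / 4), DifferentiableAt ℝ u y := fun y hy =>
      (hu1.contDiffAt (isOpen_ball.mem_nhds hy)).differentiableAt (by norm_num)
    have hdv : ∀ y ∈ ball x (R / 4), DifferentiableAt ℝ v y := fun y hy =>
      (hv1.contDiffAt (isOpen_ball.mem_nhds hy)).differentiableAt (by norm_num)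
    set L : ℝ := C * (M / (R / 2)) * q ^ α with hL
    have hL0 : 0 ≤ L := by positivity
    have hbound : ∀ {w : E → ℝ}, (∀ a ∈ ball x (R / 4), ∀ b ∈ ball x (R / 4),
        ‖gradient w a - gradient w b‖ ≤ C * (M / (R / 2)) * (‖a - b‖ / (R / 2)) ^ α) →
        ∀ y ∈ closedBall x r, ‖fderiv ℝ w y - fderiv ℝ w x‖ ≤ L := by
      intro w hw y hy
      have hy' : y ∈ ball x (R / 4) := closedBall_subset_ball hr1 hy
      have := hw y hy' x hxx
      rw [norm_gradient_sub] at this
      refine this.trans ?_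
      rw [hL]
      have hyx : ‖y - x‖ ≤ r := by rwa [← dist_eq_norm]
      have hdiv : ‖y - x‖ / (R / 2) ≤ q := by
        rw [div_le_iff₀ (by linarith)]
        calc ‖y - x‖ ≤ r := hyx
          _ = R / 8 * q := rfl
          _ ≤ q * (R / 2) := by nlinarith
      have : (‖y - x‖ / (R / 2)) ^ α ≤ q ^ α :=
        Real.rpow_le_rpow (by positivity) hdiv hα.le
      have hpos : 0 ≤ C * (M / (R / 2)) := by positivity
      exact mul_le_mul_of_nonneg_left this hpos
    have hmain := fderiv_close (u := u) (v := v) (x := x) hr0 hr1 hdu hdv (hbound hu3)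
      (hbound hv3) hL0 (fun y hy => hclose y (hsub (ball_subset_ball (by linarith) hy)))
    rw [norm_gradient_sub]
    refine hmain.trans ?_
    -- rewrite both terms
    have hqval : δ / R = (M / R) * (δ / M) := by field_simp
    have e1 : 2 * δ / r = 16 * (A * B) := by
      have hAB : A * B * q = δ / R := by
        have h1 : B = (M / R) ^ (α / (1 + α)) * (δ / M) ^ (α / (1 + α)) := by
          rw [hB, hqval, Real.mul_rpow hMR.le hδM.le]
        have h2 : A * (M / R) ^ (α / (1 + α)) = M / R := by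
          rw [hA, ← Real.rpow_add hMR, hsum, Real.rpow_one]
        have h3 : (δ / M) ^ (α / (1 + α)) * q = δ / M := by
          rw [hq, ← Real.rpow_add hδM, add_comm, hsum, Real.rpow_one]
        calc A * B * q = (A * (M / R) ^ (α / (1 + α))) * ((δ / M) ^ (α / (1 + α)) * q) := by
              rw [h1]; ring
          _ = (M / R) * (δ / M) := by rw [h2, h3]
          _ = δ / R := hqval.symm
      have hδeq : δ = A * B * q * R := by rw [hAB]; field_simp
      rw [hr]
      rw [div_eq_iff (by positivity)]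
      calc 2 * δ = 2 * (A * B * q * R) := by rw [← hδeq]
        _ = 16 * (A * B) * (R / 8 * q) := by ring
    have e2 : 2 * L = 4 * C * (A * B) := by
      have h1 : q ^ α = (δ / M) ^ (α / (1 + α)) := by
        rw [hq, ← Real.rpow_mul hδM.le]
        congr 1
        field_simp
      have h2 : A * B = (M / R) * (δ / M) ^ (α / (1 + α)) := by
        rw [hB, hqval, Real.mul_rpow hMR.le hδM.le, ← mul_assoc, hA, ← Real.rpow_add hMR, hsum,
          Real.rpow_one]
      rw [hL, h1, h2]
      field_simp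
      ring
    rw [e1, e2]
    have : 0 ≤ C * (A * B) := by positivity
    nlinarith
  · -- trivial case
    have hx1 := hu2 x hxx
    have hx2 := hv2 x hxx
    have hAB : M / R ≤ A * B := by
      have h1 : (M / R) ^ (α / (1 + α)) ≤ B := by
        rw [hB]
        exact Real.rpow_le_rpow hMR.le (by gcongr) (by positivity)
      calc M / R = A * (M / R) ^ (α / (1 + α)) := by
            rw [hA, ← Real.rpow_add hMR, hsum, Real.rpow_one]
        _ ≤ A * B := by gcongr
    calc ‖gradient u x - gradient v x‖ ≤ ‖gradient u x‖ + ‖gradient v x‖ := norm_sub_le _ _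
      _ ≤ C * (M / (R / 2)) + C * (M / (R / 2)) := add_le_add hx1 hx2
      _ = 4 * C * (M / R) := by field_simp; ring
      _ ≤ 4 * C * (A * B) := by gcongr
      _ ≤ (16 + 8 * C) * (A * B) := by
          have : 0 ≤ A * B := by positivity
          have : 0 ≤ C * (A * B) := by positivity
          nlinarith

/-- Liouville theorem: growth `o(R^{1+α})` along a sequence of radii forces `u` to be affine. -/
theorem liouville {α C : ℝ} (hC : 0 < C) (hF : Zy.FullEstimate E α C)
    (u : E → ℝ) (hu : IsInfHarmonicOn u univ)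
    (hgrow : ∀ ε > (0 : ℝ), ∀ R₀ : ℝ, ∃ R > R₀, ∀ x ∈ ball (0 : E) R, ∀ y ∈ ball (0 : E) R,
      u x - u y ≤ ε * R ^ (1 + α)) :
    ∃ (a : E) (b : ℝ), ∀ x, u x = inner ℝ a x + b := by
  have hball : ∀ R : ℝ, IsInfHarmonicOn u (ball (0 : E) R) := fun R =>
    ⟨hu.continuousOn.mono (subset_univ _), fun z _ => hu.sub z (mem_univ _),
      fun z _ => hu.super z (mem_univ _)⟩
  have hconst : ∀ x y : E, ‖gradient u x - gradient u y‖ ≤ 0 := by
    intro x y
    refine le_of_forall_pos_le_add fun η hη => ?_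
    set K : ℝ := C * ‖x - y‖ ^ α + 1 with hK
    have hK0 : 0 < K := by positivity
    obtain ⟨R, hR, hosc⟩ := hgrow (η / K) (by positivity) (2 * (‖x‖ + ‖y‖ + 1))
    have hRpos : 0 < R := lt_trans (by positivity) hR
    have h := (hF u 0 R (η / K * R ^ (1 + α)) hRpos (hball R) hosc).2.2 x
      (by rw [mem_ball, dist_zero_right]; linarith [norm_nonneg y]) y
      (by rw [mem_ball, dist_zero_right]; linarith [norm_nonneg x])
    refine h.trans ?_
    have hpow : R ^ (1 + α) = R * R ^ α := by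
      rw [Real.rpow_add hRpos, Real.rpow_one]
    have hRα : 0 < R ^ α := Real.rpow_pos_of_pos hRpos _
    rw [Real.div_rpow (norm_nonneg _) hRpos.le, hpow]
    have : C * (η / K * (R * R ^ α) / R) * (‖x - y‖ ^ α / R ^ α) = η * ((C * ‖x - y‖ ^ α) / K) := by
      field_simp
    rw [this]
    have : (C * ‖x - y‖ ^ α) / K ≤ 1 := by
      rw [div_le_one hK0]; linarith
    nlinarith
  have hfd : ∀ x, fderiv ℝ u x = fderiv ℝ u 0 := by
    intro x
    have := hconst x 0
    rw [norm_gradient_sub] at this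
    exact sub_eq_zero.mp (norm_le_zero_iff.mp this)
  have hdiff : ∀ x, DifferentiableAt ℝ u x := by
    intro x
    obtain ⟨R, hR, hosc⟩ := hgrow 1 one_pos (2 * (‖x‖ + 1))
    have hRpos : 0 < R := lt_trans (by positivity) hR
    have h := (hF u 0 R (1 * R ^ (1 + α)) hRpos (hball R) hosc).1
    exact (h.contDiffAt (isOpen_ball.mem_nhds
      (by rw [mem_ball, dist_zero_right]; linarith))).differentiableAt (by norm_num)
  refine ⟨gradient u 0, u 0, fun x => ?_⟩
  have := Convex.norm_image_sub_le_of_norm_fderiv_le' (𝕜 := ℝ) (f := u) (φ := fderiv ℝ u 0)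
    (s := univ) (C := 0) (fun y _ => hdiff y) (fun y _ => by rw [hfd y]; simp)
    convex_univ (mem_univ 0) (mem_univ x)
  rw [zero_mul, norm_le_zero_iff, sub_zero, sub_eq_zero] at this
  have hin : inner ℝ (gradient u 0) x = fderiv ℝ u 0 x := by
    unfold gradient
    rw [InnerProductSpace.toDual_symm_apply]
  rw [hin]
  linarith

end Vale.Agent.P080.H990
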